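import Crest.Agent.N250.Em.Dr
import Crest.Agent.N250.S9.Cast
import Crest.Agent.N250.B1.Sm5
import Crest.Agent.N250.El.Near
import Crest.Agent.N250.Ce.Close

/-!
# Row 250 (helper70): the ends of the family are close to the end of `S` on `[R, θ X]`
-/

set_option autoImplicit false
open Set Filter Topology Metric Complex

noncomputable section

namespace Crest.Agent.N250.Cf

open B1 Em
open Gi (hat)

variable {ℓ : Ell} {R K ε X X' N : ℝ}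

/-- pointwise form of the weak closeness -/
theorem xc_pt {V' V : Jt ℓ} (h : Xc R X X' V' V N) (hR : 1 ≤ R) (hX : R + 2 ≤ X) (hX' : R + 2 ≤ X')
    {s s' : II} (hs : xr R X' s' = xr R X s) (θ : ℝ) (i : Fin 6) :
    ‖val (V' i) s' θ - val (V i) s θ‖ ≤ N * xr R X s ^ 3 := by
  obtain ⟨β, h1, hN, hb⟩ := h i
  have hx := xr_mem' hX s
  have hx1 : 1 ≤ xr R X s := hR.trans hx.1
  have k : ∀ m, ‖Wi.co (V' i) m s' - Wi.co (V i) m s‖ ≤ β m * xr R X s ^ 3 := fun m => by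
    have h2 := hb m _ hx
    have e1 : mo R X' V' i m (xr R X s) = Wi.co (V' i) m s' := by rw [mo, ← hs, fx_xr hX']
    have e2 : mo R X V i m (xr R X s) = Wi.co (V i) m s := by rw [mo, fx_xr hX]
    rw [e1, e2] at h2
    have p1 : xr R X s ^ (7 / 8 : ℝ) ≤ xr R X s := Real.rpow_le_self_of_one_le hx1 (by norm_num)
    have p2 : xr R X s ^ (![0, 1, 2, 0, 1, 0] i : ℕ) ≤ xr R X s ^ 2 :=
      pow_le_pow_right₀ hx1 (by fin_cases i <;> simp)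
    have hb0 : 0 ≤ β m := nonneg_of_mul_nonneg_left (le_trans (by positivity) h2) (by positivity)
    have p3 := mul_le_mul p1 p2 (by positivity) (by linarith)
    have p4 : 1 ≤ Real.exp (sig (xr R X s - R) * ℓ.l m / 2) := Real.one_le_exp (by
      have := sig_nonneg (u := xr R X s - R) (by linarith [hx.1])
      have := ℓ.nonneg m
      positivity)
    refine (le_mul_of_one_le_left (norm_nonneg _) p4).trans (h2.trans ?_)
    exact (mul_le_mul_of_nonneg_left p3 hb0).trans (le_of_eq (by ring))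
  have := ((Rg.hasSum_val (V' i) s' θ).sub (Rg.hasSum_val (V i) s θ)).norm_le_of_bounded
    (h1.hasSum.mul_right (xr R X s ^ 3)) fun m => by
      rw [← mul_sub, norm_mul, Wi.norm_ex, one_mul]; exact k m
  exact this.trans (mul_le_mul_of_nonneg_right hN (by positivity))

theorem norm_val (u : Wi (om ℓ)) (s : II) (θ : ℝ) : ‖val u s θ‖ ≤ ‖u‖ :=
  (ContinuousMap.norm_coe_le_norm _ s).trans (Wi.norm_syn_le u θ)

theorem vj_sub (X a : ℂ) (J J' : Jt ℓ) (s : II) (θ : ℝ) (i : Fin 6) :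
    ‖vj R X a J s θ i - vj R X a J' s θ i‖ ≤ ‖J - J'‖ := by
  have e : vJ R X a J i = vJ R X a J' i + (J - J') i := by
    simp only [vJ, Pi.add_apply, Pi.sub_apply]; abel
  rw [← val_vJ, ← val_vJ, e, val_add', add_sub_cancel_left]
  exact (norm_val _ _ _).trans (norm_le_pi_norm _ i)

theorem dom_b {a h : ℂ} {b0 b : Wi (omP 2)} {h' : ℂ}
    (hz : ((X : ℂ), a, wd (ℓ := ℓ) b0 h) ∈ Dom R K (13 / 8) (7 / 4) ε)
    (hb : R ^ (13 / 8 : ℝ) * ‖b‖ + X * ‖h'‖ < ε) :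
    ((X : ℂ), a, wd (ℓ := ℓ) b h') ∈ Dom R K (13 / 8) (7 / 4) ε :=
  ⟨hz.1, hz.2.1, hz.2.2.1, hz.2.2.2.1, by rw [dn_wd]; exact hb⟩

theorem dom_lt {a h : ℂ} {b : Wi (omP 2)}
    (hz : ((X : ℂ), a, wd (ℓ := ℓ) b h) ∈ Dom R K (13 / 8) (7 / 4) ε) :
    R ^ (13 / 8 : ℝ) * ‖b‖ + X * ‖h‖ < ε := by
  have := hz.2.2.2.2
  rwa [dn_wd] at this

variable {U : Par ℓ → Jt ℓ} {ε1 C0 Ch c CD C c0 : ℝ}

/-- Schwarz lemma in the inner datum -/
theorem lip_b (F : Fm U R K ε ε1 C0 Ch c CD C c0) {a h : ℂ} {b0 b : Wi (omP 2)} {ρ : ℝ}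
    (hz : ((X : ℂ), a, wd (ℓ := ℓ) b0 h) ∈ Dom R K (13 / 8) (7 / 4) ε)
    (hρ : R ^ (13 / 8 : ℝ) * (‖b0‖ + ρ) + X * ‖h‖ ≤ ε) (hb : ‖b - b0‖ < ρ) :
    ((X : ℂ), a, wd (ℓ := ℓ) b h) ∈ Dom R K (13 / 8) (7 / 4) ε ∧
      ‖U ((X : ℂ), a, wd b h) - U ((X : ℂ), a, wd b0 h)‖ ≤ 12 * ε1 / ρ * ‖b - b0‖ := by
  have hR := F.sz.hR
  have hp : 0 < R ^ (13 / 8 : ℝ) := by positivity
  have hm : ∀ b' ∈ ball b0 ρ, ((X : ℂ), a, wd (ℓ := ℓ) b' h) ∈ Dom R K (13 / 8) (7 / 4) ε :=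
    fun b' hb' => dom_b hz (by
      have h1 := norm_add_le (b' - b0) b0
      rw [sub_add_cancel] at h1
      rw [mem_ball_iff_norm] at hb'
      nlinarith)
  have hb' : b ∈ ball b0 ρ := mem_ball_iff_norm.2 hb
  refine ⟨hm b hb', (H.lip_le (f := fun b' => U ((X : ℂ), a, wd b' h)) (M := 6 * ε1)
    (F.isEnd.hol.comp (f := fun b' => (((X : ℂ), a, wd b' h) : Par ℓ))
      ((differentiableOn_const _).prodMk ((differentiableOn_const _).prodMk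
        (differentiable_wd.comp_differentiableOn (f := fun b' => (b', h)) (by fun_prop)))) hm)
    (fun b' k => S9.inB_norm ex_138 hR (by linarith [F.sz.hK]) (hm b' k) (F.sl (hm b' k)).inb)
    hb').trans_eq (by ring)⟩

/-- the far parameter at the cut `θ X` is small -/
theorem tau_small {θ δ : ℝ} {a τ : ℂ} (hK : 1 ≤ K) (hCD : 0 < CD) (hθ : 0 < θ) (hθ1 : θ ≤ 1)
    (hδ : 20 * θ ≤ δ) (hY : 10 ≤ θ * X) (hY' : 8 * CD ≤ θ ^ 2 * δ * (θ * X)) (ha : Adm K X a)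
    (h1 : ‖τ‖ ≤ 1 / (θ * X) ^ 2)
    (h2 : ‖hat (θ * X) τ - hat X a‖ ≤ CD * (1 / ((θ * X) ^ 6 * (et a X).re) + 1 / (θ * X) ^ 5)) :
    ‖τ‖ * (θ * X) ^ 2 ≤ δ := by
  have hX : 10 ≤ X := by nlinarith
  set Y := θ * X with hYe
  have h3 := El.le_norm_hat hY h1
  have h4 := El.norm_hat_adm ha (by linarith) hX
  have h5 := El.re_ge_adm ha (by linarith) (by linarith)
  have h6 := norm_add_le (hat Y τ - hat X a) (hat X a)
  rw [sub_add_cancel] at h6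
  have h7 : 1 / (Y ^ 6 * (et a X).re) ≤ 1 / (θ ^ 2 * Y ^ 3) := by
    refine one_div_le_one_div_of_le (by positivity) ?_
    have k1 : 1 / X ^ 2 ≤ (et a X).re := le_trans (by gcongr) h5
    calc θ ^ 2 * Y ^ 3 ≤ θ ^ 2 * Y ^ 4 := by gcongr <;> [linarith; norm_num]
      _ = Y ^ 6 * (1 / X ^ 2) := by rw [hYe]; field_simp
      _ ≤ _ := by gcongr
  have h8 : 1 / Y ^ 5 ≤ 1 / (θ ^ 2 * Y ^ 3) := by
    refine one_div_le_one_div_of_le (by positivity) ?_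
    calc θ ^ 2 * Y ^ 3 ≤ 1 ^ 2 * Y ^ 5 := by gcongr <;> [linarith; norm_num]
      _ = _ := by ring
  have h9 : CD * (1 / (θ ^ 2 * Y ^ 3) + 1 / (θ ^ 2 * Y ^ 3)) * Y ^ 2 ≤ δ / 4 := by
    have e : CD * (1 / (θ ^ 2 * Y ^ 3) + 1 / (θ ^ 2 * Y ^ 3)) * Y ^ 2 = 2 * CD / (θ ^ 2 * Y) := by
      field_simp; ring
    rw [e, div_le_iff₀ (by positivity)]
    linarith
  have h10 : 5 / X ^ 2 * Y ^ 2 ≤ δ / 4 := by
    have e : 5 / X ^ 2 * Y ^ 2 = 5 * θ ^ 2 := by rw [hYe]; field_simp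
    rw [e]; nlinarith
  have h11 : ‖τ‖ ≤ 2 * (CD * (1 / (θ ^ 2 * Y ^ 3) + 1 / (θ ^ 2 * Y ^ 3)) + 5 / X ^ 2) := by
    have := h2.trans (mul_le_mul_of_nonneg_left (add_le_add h7 h8) hCD.le)
    linarith
  have := mul_le_mul_of_nonneg_right h11 (sq_nonneg Y)
  linarith

theorem pow_small {Y x : ℝ} (hC : 0 ≤ C) (hY : 1 ≤ Y) (h0 : 0 ≤ x) (hx : x ≤ Y) :
    C * Y ^ (-33 / 8 : ℝ) * x ^ 3 ≤ C / Y := by
  have h1 := Real.rpow_le_rpow_of_exponent_le hY (show (-33 / 8 : ℝ) ≤ -(4 : ℕ) by norm_num)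
  rw [Real.rpow_neg (by linarith), Real.rpow_natCast] at h1
  calc C * Y ^ (-33 / 8 : ℝ) * x ^ 3 ≤ C * (Y ^ 4)⁻¹ * Y ^ 3 := by gcongr
    _ = _ := by field_simp

/-- **END-CLOSE** -/
theorem close (F : Fm U R K ε ε1 C0 Ch c CD C c0) {b0 : Wi (omP 2)} {jS : ℝ × ℝ → Fin 6 → ℂ}
    (hI : Ce.Idt ℓ R K ε U b0 jS) {t : ℝ} (ht : 0 < t) :
    ∃ θ rb X1 : ℝ, 0 < θ ∧ θ ≤ 1 ∧ 0 < rb ∧ ∀ (X : ℝ) (a h : ℂ) (b : Wi (omP 2)), X1 ≤ X →
      ((X : ℂ), a, wd (ℓ := ℓ) b h) ∈ Dom R K (13 / 8) (7 / 4) ε →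
      ‖h‖ ≤ Ch / (X ^ 3 * ‖et a X‖) → ‖b - b0‖ ≤ rb → ∀ (s : II) (φ : ℝ) (i : Fin 6),
        xr R X s ≤ θ * X → ‖vj R X a (U ((X : ℂ), a, wd b h)) s φ i - jS (xr R X s, φ) i‖ ≤ t := by
  obtain ⟨δ, X0, hδ, hI⟩ := hI (t / 3) (by positivity)
  have hR := F.sz.hR
  have hK := F.sz.hK
  have hc := F.c_pos
  have hc' := F.c_le
  have hC := F.C_pos
  have hCD := F.CD_pos
  have he := F.ε1_nonneg
  have hp : 0 < R ^ (13 / 8 : ℝ) := by positivity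
  have hb0 := dom_lt (hI X0 le_rfl 0 0 (by simpa using hδ.le) (by simpa using hδ.le)).1
  simp only [norm_zero, mul_zero, add_zero] at hb0
  set ρ := ε / R ^ (13 / 8 : ℝ) - ‖b0‖ with hρ
  have hρ0 : 0 < ρ := by rw [hρ, sub_pos, lt_div_iff₀ hp]; linarith
  have hρ1 : R ^ (13 / 8 : ℝ) * (‖b0‖ + ρ) = ε := by rw [hρ]; field_simp; ring
  set θ := min c δ / 20 with hθ
  have hθ0 : 0 < θ := by positivity
  have hθc : 20 * θ ≤ c := by rw [hθ]; linarith [min_le_left c δ]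
  have hθd : 20 * θ ≤ δ := by rw [hθ]; linarith [min_le_right c δ]
  obtain ⟨Y1, hY⟩ := eventually_atTop.1 ((eventually_ge_atTop X0).and ((eventually_ge_atTop 10).and
    ((eventually_ge_atTop (2 * R + 4)).and ((eventually_ge_atTop (2 * √K)).and
      ((eventually_ge_atTop (8 * CD / (θ ^ 2 * δ))).and (eventually_ge_atTop (3 * C / t)))))))
  refine ⟨θ, min (ρ / 2) (t / 3 * ρ / (12 * ε1 + 1)), Y1 / θ, hθ0, by linarith, by positivity,
    fun X a h b hX hz hh hb s φ i hs => ?_⟩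
  rw [div_le_iff₀ hθ0, mul_comm] at hX
  obtain ⟨k0, k1, k2, k3, k4, k5⟩ := hY _ hX
  have hX0 : 0 < X := (mul_pos_iff_of_pos_left hθ0).1 (by linarith)
  have hYX : θ * X ≤ X := mul_le_of_le_one_left hX0.le (by linarith)
  have ha : Adm K X a := hz.2.2.2.1
  have ha1 := Xi.Tip.norm_le ha (by linarith)
  have ha2 : ‖a‖ * (θ * X) ^ 2 ≤ c := by
    have h1 := mul_le_mul_of_nonneg_left ha1 (sq_nonneg θ)
    have h2 : θ ^ 2 ≤ θ := pow_le_of_le_one hθ0.le (by linarith) two_ne_zero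
    rw [mul_pow]; linarith
  have S' := F.sl hz
  obtain ⟨d1, d2⟩ := F.drift (θ * X) X a h b _ k2 k3 hYX ha ha2 hh S'.sol (by simpa using S'.inb)
  have t1 := F.tau_sub hz k2 hYX
  set τ := tauX R (θ * X) X a (U ((X : ℂ), a, wd b h))
  have t2 : ‖τ‖ ≤ 1 / (θ * X) ^ 2 := by
    have h1 := norm_add_le (τ - a) a
    rw [sub_add_cancel] at h1
    rw [le_div_iff₀ (by positivity)] at t1 ⊢
    linarith [mul_le_mul_of_nonneg_right h1 (sq_nonneg (θ * X))]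
  have t3 := tau_small (by linarith) hCD hθ0 (by linarith) hθd k1 (by
    rw [div_le_iff₀ (by positivity)] at k4; linarith) ha t2 d1
  obtain ⟨z0, i0⟩ := hI (θ * X) k0 τ 0 t3 (by simpa using hδ.le)
  obtain ⟨z1, l1⟩ := lip_b F (b := b) (ρ := ρ) z0 (by simpa using hρ1.le)
    (by linarith [min_le_left (ρ / 2) (t / 3 * ρ / (12 * ε1 + 1))])
  have S := F.sl z1
  have d3 := d2 0 _ (by rw [norm_zero]; have := F.Ch_nonneg; positivity) S.sol (by simpa using S.inb)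
  have hx := xr_mem' (R := R) (X0 := X) (by linarith) s
  obtain ⟨s1, hs1⟩ := exists_xr (R := R) (X0 := θ * X) (by linarith) ⟨hx.1, hs⟩
  have e1 := xc_pt d3 (by linarith) (by linarith) (by linarith) hs1.symm φ i
  rw [val_vJ, val_vJ, hs1] at e1
  have e2 := (vj_sub (R := R) ((θ * X : ℝ) : ℂ) τ _ _ s1 φ i).trans l1
  have e3 := i0 s1 φ i
  rw [hs1] at e3
  have f1 := e1.trans (pow_small hC.le (by linarith) (by linarith [hx.1]) hs)
  have f2 : C / (θ * X) ≤ t / 3 := by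
    rw [div_le_iff₀ ht] at k5
    rw [div_le_iff₀ (by positivity)]; linarith
  have f3 : 12 * ε1 / ρ * ‖b - b0‖ ≤ t / 3 := by
    have h1 := hb.trans (min_le_right _ _)
    rw [le_div_iff₀ (by positivity)] at h1
    rw [div_mul_eq_mul_div, div_le_iff₀ hρ0]
    linarith [norm_nonneg (b - b0)]
  have g1 := norm_sub_le_norm_sub_add_norm_sub (vj R X a (U ((X : ℂ), a, wd b h)) s φ i)
    (vj R (θ * X : ℝ) τ (U (((θ * X : ℝ) : ℂ), τ, wd b 0)) s1 φ i) (jS (xr R X s, φ) i)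
  have g2 := norm_sub_le_norm_sub_add_norm_sub
    (vj R (θ * X : ℝ) τ (U (((θ * X : ℝ) : ℂ), τ, wd b 0)) s1 φ i)
    (vj R (θ * X : ℝ) τ (U (((θ * X : ℝ) : ℂ), τ, wd b0 0)) s1 φ i) (jS (xr R X s, φ) i)
  linarith

end Crest.Agent.N250.Cf

end
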