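import Crest.Agent.N250.Cf.Close
import Crest.Agent.N250.S9.Idt
import Crest.Agent.N250.Fm.Defs

/-!
# Row 250 (helper70): END-CLOSE for the end of the shrinker, real form
-/

set_option autoImplicit false
open Set Filter Topology Metric Complex
open scoped ContDiff

noncomputable section

namespace Crest.Agent.N250.Cf

open B1 Em
open Ra (dd)

variable {ℓ : Ell} {R K ε X t : ℝ} {f g : ℝ × ℝ → ℝ} {q : ℝ × ℝ}

theorem dd_sub (u : ℝ × ℝ) (hf : ContDiffAt ℝ 2 f q) (hg : ContDiffAt ℝ 2 g q) :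
    dd u (fun y => f y - g y) q = dd u f q - dd u g q := by
  simp only [dd]
  rw [fderiv_fun_sub (hf.differentiableAt (by norm_num)) (hg.differentiableAt (by norm_num))]; rfl

theorem diff_dd (u : ℝ × ℝ) (hf : ContDiffAt ℝ 2 f q) : DifferentiableAt ℝ (dd u f) q :=
  ((hf.fderiv_right (m := 1) (by norm_num)).differentiableAt one_ne_zero).clm_apply
    (differentiableAt_const u)

theorem dd_dd_sub (u v : ℝ × ℝ) (hf : ContDiffAt ℝ 2 f q) (hg : ContDiffAt ℝ 2 g q) :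
    dd u (dd v fun y => f y - g y) q = dd u (dd v f) q - dd u (dd v g) q := by
  have e : (dd v fun y => f y - g y) =ᶠ[𝓝 q] fun y => dd v f y - dd v g y := by
    filter_upwards [hf.eventually (by simp), hg.eventually (by simp)] with y h1 h2
    exact dd_sub v h1 h2
  change fderiv ℝ _ q u = fderiv ℝ _ q u - fderiv ℝ _ q u
  rw [e.fderiv_eq, fderiv_fun_sub (diff_dd v hf) (diff_dd v hg)]; rfl

/-- closeness of the jets in real form -/
theorem j2_of {a : ℂ} {J : Jt ℓ} (hJ : IsJet (dgam R X) J) (hX : R + 2 ≤ X) (hq : q.1 ∈ Ioo R X)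
    (hg : ContDiffAt ℝ 2 g q) (h : ∀ i, ‖vk R X a J (tX R X) i q - (S9.jw g i q : ℝ)‖ ≤ t) :
    Fm.J2le (fun y => (vX R X a J y).re - g y) t q := by
  have hn : Icc R X ∈ 𝓝 q.1 := Icc_mem_nhds hq.1 hq.2
  have hr := rd_real hX
  have hf : ContDiffAt ℝ 2 (fun y => (vX R X a J y).re) q :=
    reCLM.contDiff.contDiffAt.comp q ((vX_c2 hX hJ).contDiffAt (nhds_strip hn))
  have k : ∀ i, |(vk R X a J (tX R X) i q).re - S9.jw g i q| ≤ t := fun i => by
    simpa using (abs_re_le_norm _).trans (h i)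
  refine ⟨k 0, ?_, ?_, ?_, ?_, ?_⟩
  · exact (congrArg abs ((dd_sub _ hf hg).trans (congrArg (· - _) (hJ.d1_0 hr hn reCLM)))).trans_le (k 1)
  · exact (congrArg abs ((dd_sub _ hf hg).trans (congrArg (· - _) (hJ.d2_0 hr hn reCLM)))).trans_le (k 3)
  · exact (congrArg abs ((dd_dd_sub _ _ hf hg).trans (congrArg (· - _) (hJ.d11 hr hn reCLM)))).trans_le (k 2)
  · exact (congrArg abs ((dd_dd_sub _ _ hf hg).trans (congrArg (· - _) (hJ.d12 hr hn reCLM)))).trans_le (k 4)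
  · exact (congrArg abs ((dd_dd_sub _ _ hf hg).trans (congrArg (· - _) (hJ.d22 hr hn reCLM)))).trans_le (k 5)

variable {S : Mv}

variable {U : Par ℓ → Jt ℓ} {ε1 C0 Ch c CD C c0 : ℝ}

/-- **END-CLOSE**, real form -/
theorem close_j2 (F : Fm U R K ε ε1 C0 Ch c CD C c0) {e : Ends S} {j : Fin e.p} (hR : e.R ≤ R)
    {b0 : Wi (omP 2)} (hI : Ce.Idt ℓ R K ε U b0 (S9.jS e j)) (ht : 0 < t) :
    ∃ θ rb X1 : ℝ, 0 < θ ∧ θ ≤ 1 ∧ 0 < rb ∧ ∀ (X : ℝ) (a h : ℂ) (b : Wi (omP 2)), X1 ≤ X →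
      ((X : ℂ), a, wd (ℓ := ℓ) b h) ∈ Dom R K (13 / 8) (7 / 4) ε →
      ‖h‖ ≤ Ch / (X ^ 3 * ‖et a X‖) → ‖b - b0‖ ≤ rb → ∀ q : ℝ × ℝ, R < q.1 → q.1 < θ * X →
        Fm.J2le (fun y => (vX R X a (U ((X : ℂ), a, wd b h)) y).re - Fm.vS e j y) t q := by
  obtain ⟨θ, rb, X1, h0, h1, h2, h3⟩ := close F hI ht
  refine ⟨θ, rb, X1, h0, h1, h2, fun X a h b hX hz hh hb q q1 q2 => ?_⟩
  have hR2 := F.sz.hR
  have hX2 : R + 2 ≤ X := by have := hz.1; simp only [ofReal_re] at this; linarith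
  have q3 : q.1 < X := q2.trans_le (mul_le_of_le_one_left (by linarith) h1)
  have e1 := xr_tX hX2 ⟨q1.le, q3.le⟩
  refine j2_of (F.sl hz).sol.jet hX2 ⟨q1, q3⟩ ((Ra.sm_of (((e.sm j).pow 2).div_const 2) q
    (hR.trans_lt q1)).of_le (by norm_cast)) fun i => ?_
  have := h3 X a h b hX hz hh hb (tX R X q.1) q.2 i (by rw [e1]; exact q2.le)
  rwa [e1] at this

end Crest.Agent.N250.Cf

end
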